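import Vale.Agent.Lib.P262S.MainAll

/-- **The Euclidean Steinitz constant has order `√d`** (the Steinitz-Bergström conjecture
`S_2(d) = O(√d)`): there is an absolute constant `C` such that every finite zero-sum list of vectors
in the closed unit ball of Euclidean `ℝ^d` has a rearrangement all of whose partial sums have norm
at most `C √d`. -/
theorem Vale.Agent.Results.P262.AASqrtD.result :
    ∃ C : ℝ, 0 < C ∧ ∀ d : ℕ, 1 ≤ d → ∀ l : List (EuclideanSpace ℝ (Fin d)),
      (∀ v ∈ l, ‖v‖ ≤ 1) → l.sum = 0 →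
      ∃ l' : List (EuclideanSpace ℝ (Fin d)), l'.Perm l ∧
        ∀ k : ℕ, ‖(l'.take k).sum‖ ≤ C * Real.sqrt (d : ℝ) :=
  Vale.Agent.Lib.P262S.steinitz_sqrt
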