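import Vale.Agent.Lib.P262.Few

open Vale.Agent.Lib.P262 in
/-- Banaszczyk's bound implies the bound `O(√n)` for zero-sum families with at most `n` distinct
vectors, with no dependence on the dimension or the length of the family. -/
theorem Vale.Agent.Results.P262.FewDistinct.result :
    ∀ C : ℝ, 0 ≤ C →
      (∀ d N : ℕ, 1 ≤ d → 1 ≤ N → OrderBound d N (C * (Real.sqrt d + Real.sqrt (Real.log N)))) →
      ∀ (d n : ℕ) (l : List (EuclideanSpace ℝ (Fin d))) (S : Finset (EuclideanSpace ℝ (Fin d))),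
        S.card ≤ n → (∀ v ∈ l, v ∈ S) → (∀ v ∈ l, ‖v‖ ≤ 1) → l.sum = 0 →
        ∃ l' : List (EuclideanSpace ℝ (Fin d)), l'.Perm l ∧
          ∀ k : ℕ, ‖(l'.take k).sum‖ ≤ (5 + 20 * C) * Real.sqrt n := by
  intro C hC hB d n l S hS hlS hl1 hl0
  have h₁ : ∀ r, 1 ≤ r → r ≤ n → OrderBound r (20 * r * 103 ^ r) ((5 * C) * Real.sqrt r) := by
    intro r hr1 _
    have hN : 1 ≤ 20 * r * 103 ^ r := by
      have : 0 < 20 * r * 103 ^ r := by positivity
      omega
    apply (hB r _ hr1 hN).mono (le_refl _)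
    have hlog := log_step r hr1
    have hr' : (0:ℝ) ≤ r := Nat.cast_nonneg r
    have h2 : Real.sqrt (Real.log ((20 * r * 103 ^ r : ℕ) : ℝ)) ≤ 4 * Real.sqrt r := by
      apply Real.sqrt_le_iff.2
      constructor
      · positivity
      · rw [mul_pow, Real.sq_sqrt hr']
        nlinarith
    nlinarith [Real.sqrt_nonneg (r:ℝ)]
  obtain ⟨l', hp, hb⟩ := few_distinct n (5 * C) (by positivity) h₁ l hl1 hl0 S hS hlS
  refine ⟨l', hp, fun k => (hb k).trans (le_of_eq ?_)⟩
  ring
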