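import Vale.Agent.Lib.P262C.Final

/-- **Unconditional** bound `S_2(d) = O(√(d log log d))` for the Euclidean Steinitz constant.
No hypothesis is assumed. -/
theorem Vale.Agent.Results.P262.LogLog.result :
    ∃ C : ℝ, 0 < C ∧ ∀ d : ℕ, 1 ≤ d → ∀ l : List (EuclideanSpace ℝ (Fin d)),
      (∀ v ∈ l, ‖v‖ ≤ 1) → l.sum = 0 →
      ∃ l' : List (EuclideanSpace ℝ (Fin d)), l'.Perm l ∧
        ∀ k : ℕ, ‖(l'.take k).sum‖ ≤
          C * Real.sqrt (((d:ℝ) + 1) * Real.log (Real.log ((d:ℝ) + 3) + 2)) :=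
  Vale.Agent.Lib.P262C.steinitz_loglog
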