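import Vale.Agent.Lib.P262.Few

open Vale.Agent.Lib.P262 in
/-- Unconditional reduction of the Euclidean Steinitz problem to lists of bounded length. -/
theorem Vale.Agent.Results.P262.Reduction.result :
    ∀ (d : ℕ), 1 ≤ d → ∀ (β T : ℝ), 0 ≤ β →
      (∀ r : ℕ, 1 ≤ r → r ≤ d + 1 → OrderBound r (20 * r * 103 ^ r) (β * Real.sqrt r)) →
      OrderBound d ((d + 2) ^ (10 * d + 2)) T →
      ∀ l : List (EuclideanSpace ℝ (Fin d)), (∀ v ∈ l, ‖v‖ ≤ 1) → l.sum = 0 →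
        ∃ l' : List (EuclideanSpace ℝ (Fin d)), l'.Perm l ∧
          ∀ k : ℕ, ‖(l'.take k).sum‖ ≤ T + 4 * (5 + 4 * β) * Real.sqrt ((d:ℝ) + 1) + 2 :=
  fun _ hd β T hβ h₁ h₂ l hl1 hl0 => reduction hd β hβ T h₁ h₂ l hl1 hl0
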