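import Vale.Agent.Lib.P262.Few

open Vale.Agent.Lib.P262 in
/-- Banaszczyk's bound for lists of length `N` implies the bound `O(√(d log d))` for all lengths. -/
theorem Vale.Agent.Results.P262.SqrtDLogD.result :
    ∀ C : ℝ, 0 ≤ C →
      (∀ d N : ℕ, 1 ≤ d → 1 ≤ N → OrderBound d N (C * (Real.sqrt d + Real.sqrt (Real.log N)))) →
      ∀ d : ℕ, 1 ≤ d → ∀ l : List (EuclideanSpace ℝ (Fin d)), (∀ v ∈ l, ‖v‖ ≤ 1) → l.sum = 0 →
        ∃ l' : List (EuclideanSpace ℝ (Fin d)), l'.Perm l ∧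
          ∀ k : ℕ, ‖(l'.take k).sum‖
            ≤ 85 * (1 + C) * Real.sqrt (((d:ℝ) + 1) * Real.log ((d:ℝ) + 2)) :=
  fun _ hC hB _ hd l hl1 hl0 => steinitz_sqrt_log hC hB hd l hl1 hl0
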