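import Vale.Agent.Lib.P262B.Final

/-- **Unconditional** bound `S_2(d) = O(√(d log d))` for the Euclidean Steinitz constant.
No hypothesis is assumed: the required bound for lists of bounded length (Banaszczyk 2012) is
proved in `Vale.Agent.Lib.P262B`. -/
theorem Vale.Agent.Results.P262.Unconditional.result :
    ∃ C : ℝ, 0 < C ∧ ∀ d : ℕ, 1 ≤ d → ∀ l : List (EuclideanSpace ℝ (Fin d)),
      (∀ v ∈ l, ‖v‖ ≤ 1) → l.sum = 0 →
      ∃ l' : List (EuclideanSpace ℝ (Fin d)), l'.Perm l ∧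
        ∀ k : ℕ, ‖(l'.take k).sum‖ ≤ C * Real.sqrt (((d:ℝ) + 1) * Real.log ((d:ℝ) + 2)) :=
  Vale.Agent.Lib.P262B.steinitz_unconditional
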